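import Mathlib

set_option autoImplicit false
set_option linter.unusedSectionVars false
set_option linter.unusedSimpArgs false

open Finset

namespace Vale.Agent.helper6.PTF

noncomputable section

/-- The value of a coordinate of the discrete cube: `true` is `1`, `false` is `-1`. -/
def sg (b : Bool) : ℝ := if b then 1 else -1

lemma sg_mul_self (b : Bool) : sg b * sg b = 1 := by cases b <;> simp [sg]

lemma sg_not (b : Bool) : sg (!b) = - sg b := by cases b <;> simp [sg]

section Cube

variable {ι : Type*} [Fintype ι] [DecidableEq ι]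

/-- The character `x ↦ ∏_{i ∈ S} x_i` of the cube. -/
def chi (S : Finset ι) (x : ι → Bool) : ℝ := ∏ i ∈ S, sg (x i)

/-- Flip coordinate `i`. -/
def flipAt (i : ι) (x : ι → Bool) : ι → Bool := Function.update x i (!x i)

lemma flip_flip (i : ι) (x : ι → Bool) : flipAt i (flipAt i x) = x := by
  funext j
  by_cases h : j = i
  · subst h; simp [flipAt]
  · simp [flipAt, Function.update_of_ne h]

/-- Flipping as a permutation of the cube. -/
def flipEquiv (i : ι) : (ι → Bool) ≃ (ι → Bool) :=
  ⟨flipAt i, flipAt i, flip_flip i, flip_flip i⟩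

lemma chi_eq_prod_univ (S : Finset ι) (x : ι → Bool) :
    chi S x = ∏ i, if i ∈ S then sg (x i) else 1 := by
  unfold chi
  rw [Finset.prod_ite_mem]
  simp

lemma chi_mul (S T : Finset ι) (x : ι → Bool) :
    chi S x * chi T x = chi (symmDiff S T) x := by
  rw [chi_eq_prod_univ, chi_eq_prod_univ, chi_eq_prod_univ, ← Finset.prod_mul_distrib]
  refine Finset.prod_congr rfl fun i _ => ?_
  by_cases h1 : i ∈ S <;> by_cases h2 : i ∈ T <;>
    simp [Finset.mem_symmDiff, h1, h2, sg_mul_self]

lemma chi_sq (S : Finset ι) (x : ι → Bool) : chi S x * chi S x = 1 := by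
  rw [chi_mul]; simp [chi]

lemma chi_flip_mem (S : Finset ι) (i : ι) (h : i ∈ S) (x : ι → Bool) :
    chi S (flipAt i x) = - chi S x := by
  unfold chi
  rw [← Finset.mul_prod_erase S _ h, ← Finset.mul_prod_erase S (fun j => sg (x j)) h]
  have h1 : ∏ j ∈ S.erase i, sg (flipAt i x j) = ∏ j ∈ S.erase i, sg (x j) := by
    refine Finset.prod_congr rfl fun j hj => ?_
    have : j ≠ i := (Finset.mem_erase.mp hj).1
    simp [flipAt, Function.update_of_ne this]
  rw [h1]
  have h2 : flipAt i x i = !x i := by simp [flipAt]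
  rw [h2, sg_not]
  ring

lemma chi_flip_not_mem (S : Finset ι) (i : ι) (h : i ∉ S) (x : ι → Bool) :
    chi S (flipAt i x) = chi S x := by
  unfold chi
  refine Finset.prod_congr rfl fun j hj => ?_
  have : j ≠ i := fun e => h (e ▸ hj)
  simp [flipAt, Function.update_of_ne this]

lemma sum_chi_eq_zero (S : Finset ι) (hS : S.Nonempty) : ∑ x, chi S x = 0 := by
  obtain ⟨i, hi⟩ := hS
  have h1 : ∑ x, chi S (flipEquiv i x) = ∑ x, chi S x := Equiv.sum_comp (flipEquiv i) (chi S)
  have h2 : ∀ x, chi S (flipEquiv i x) = - chi S x := fun x => chi_flip_mem S i hi x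
  simp_rw [h2] at h1
  rw [Finset.sum_neg_distrib] at h1
  linarith

lemma card_cube : (Fintype.card (ι → Bool) : ℝ) = 2 ^ Fintype.card ι := by
  simp [Fintype.card_fun]

lemma sum_chi_mul (S T : Finset ι) :
    ∑ x, chi S x * chi T x = if S = T then 2 ^ Fintype.card ι else 0 := by
  simp_rw [chi_mul]
  split_ifs with h
  · subst h
    simp [chi, card_cube]
  · apply sum_chi_eq_zero
    rw [Finset.nonempty_iff_ne_empty]
    intro h2
    apply h
    have := symmDiff_eq_bot.mp (show symmDiff S T = ⊥ from h2)
    exact this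

lemma chi_orth (x y : ι → Bool) :
    ∑ S : Finset ι, chi S x * chi S y = if x = y then 2 ^ Fintype.card ι else 0 := by
  have h1 : ∀ S : Finset ι, chi S x * chi S y = ∏ i ∈ S, (sg (x i) * sg (y i)) := by
    intro S
    unfold chi
    rw [Finset.prod_mul_distrib]
  simp_rw [h1]
  have h2 := Finset.prod_one_add (f := fun i : ι => sg (x i) * sg (y i)) Finset.univ
  rw [Finset.powerset_univ] at h2
  rw [← h2]
  split_ifs with hxy
  · subst hxy
    have : ∀ i : ι, 1 + sg (x i) * sg (x i) = 2 := fun i => by rw [sg_mul_self]; norm_num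
    simp_rw [this]
    simp
  · obtain ⟨i, hi⟩ : ∃ i, x i ≠ y i := by
      by_contra hcon
      push Not at hcon
      exact hxy (funext hcon)
    apply Finset.prod_eq_zero (Finset.mem_univ i)
    revert hi
    cases x i <;> cases y i <;> simp [sg]

/-- Fourier coefficient. -/
def coef (f : (ι → Bool) → ℝ) (S : Finset ι) : ℝ :=
  (∑ x, f x * chi S x) / 2 ^ Fintype.card ι

lemma fourier_inversion (f : (ι → Bool) → ℝ) (x : ι → Bool) :
    f x = ∑ S : Finset ι, coef f S * chi S x := by
  unfold coef
  have : ∀ S : Finset ι, (∑ y, f y * chi S y) / 2 ^ Fintype.card ι * chi S x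
      = ∑ y, f y * (chi S y * chi S x) / 2 ^ Fintype.card ι := by
    intro S
    rw [Finset.sum_div, Finset.sum_mul]
    refine Finset.sum_congr rfl fun y _ => ?_
    ring
  simp_rw [this]
  rw [Finset.sum_comm]
  simp_rw [← Finset.sum_div, ← Finset.mul_sum]
  simp_rw [chi_orth]
  have h2 : (2:ℝ) ^ Fintype.card ι ≠ 0 := by positivity
  rw [Finset.sum_eq_single x]
  · simp [h2]
  · intro y _ hy
    simp [hy]
  · simp

/-- Parseval for an explicit expansion. -/
lemma parseval (a : Finset ι → ℝ) :
    ∑ x, (∑ S, a S * chi S x) ^ 2 = 2 ^ Fintype.card ι * ∑ S, a S ^ 2 := by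
  have h1 : ∀ x, (∑ S, a S * chi S x) ^ 2
      = ∑ S, ∑ T, a S * a T * (chi S x * chi T x) := by
    intro x
    rw [sq, Finset.sum_mul_sum]
    refine Finset.sum_congr rfl fun S _ => Finset.sum_congr rfl fun T _ => ?_
    ring
  simp_rw [h1]
  rw [Finset.sum_comm]
  have h2 : ∀ S : Finset ι, ∑ x, ∑ T, a S * a T * (chi S x * chi T x)
      = 2 ^ Fintype.card ι * a S ^ 2 := by
    intro S
    rw [Finset.sum_comm]
    simp_rw [← Finset.mul_sum, sum_chi_mul]
    rw [Finset.sum_eq_single S]
    · simp; ring
    · intro T _ hT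
      simp [Ne.symm hT]
    · simp
  simp_rw [h2]
  rw [Finset.mul_sum]

/-- The space of polynomials of degree at most `d` on the cube. -/
def Pol (ι : Type*) [Fintype ι] [DecidableEq ι] (d : ℕ) : Submodule ℝ ((ι → Bool) → ℝ) :=
  Submodule.span ℝ {h | ∃ S : Finset ι, S.card ≤ d ∧ h = chi S}

lemma chi_mem_Pol {d : ℕ} (S : Finset ι) (h : S.card ≤ d) : chi S ∈ Pol ι d :=
  Submodule.subset_span ⟨S, h, rfl⟩

lemma sum_mem_Pol (d : ℕ) (a : Finset ι → ℝ) (ha : ∀ S, d < S.card → a S = 0) :
    (fun x => ∑ S, a S * chi S x) ∈ Pol ι d := by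
  have : (fun x => ∑ S, a S * chi S x) = ∑ S, a S • chi S := by
    funext x
    simp [Finset.sum_apply]
  rw [this]
  refine Submodule.sum_mem _ fun S _ => ?_
  by_cases h : d < S.card
  · rw [ha S h, zero_smul]
    exact Submodule.zero_mem _
  · exact Submodule.smul_mem _ _ (chi_mem_Pol S (not_lt.mp h))

lemma card_symmDiff_le (S T : Finset ι) : (symmDiff S T).card ≤ S.card + T.card := by
  have h : symmDiff S T ⊆ S ∪ T := by
    intro i hi
    rw [Finset.mem_symmDiff] at hi
    rw [Finset.mem_union]
    tauto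
  exact (Finset.card_le_card h).trans (Finset.card_union_le S T)

lemma mul_mem_Pol {a b : ℕ} {f g : (ι → Bool) → ℝ} (hf : f ∈ Pol ι a) (hg : g ∈ Pol ι b) :
    f * g ∈ Pol ι (a + b) := by
  induction hf using Submodule.span_induction with
  | mem h hh =>
    obtain ⟨S, hS, rfl⟩ := hh
    induction hg using Submodule.span_induction with
    | mem k hk =>
      obtain ⟨T, hT, rfl⟩ := hk
      have : chi S * chi T = chi (symmDiff S T) := by
        funext x
        simp [chi_mul]
      rw [this]
      exact chi_mem_Pol _ ((card_symmDiff_le S T).trans (Nat.add_le_add hS hT))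
    | zero => simp
    | add x y _ _ hx hy =>
      rw [mul_add]
      exact Submodule.add_mem _ hx hy
    | smul c x _ hx =>
      rw [mul_smul_comm]
      exact Submodule.smul_mem _ _ hx
  | zero => simp
  | add x y _ _ hx hy =>
    rw [add_mul]
    exact Submodule.add_mem _ hx hy
  | smul c x _ hx =>
    rw [smul_mul_assoc]
    exact Submodule.smul_mem _ _ hx

/-- The top character is orthogonal to polynomials of degree below the dimension. -/
lemma top_orth {d : ℕ} (hd : d < Fintype.card ι) {h : (ι → Bool) → ℝ} (hh : h ∈ Pol ι d) :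
    ∑ x, chi (univ : Finset ι) x * h x = 0 := by
  induction hh using Submodule.span_induction with
  | mem k hk =>
    obtain ⟨S, hS, rfl⟩ := hk
    rw [sum_chi_mul, if_neg]
    intro e
    rw [← e, Finset.card_univ] at hS
    omega
  | zero => simp
  | add x y _ _ hx hy =>
    simp only [Pi.add_apply, mul_add]
    rw [Finset.sum_add_distrib, hx, hy, add_zero]
  | smul c x _ hx =>
    simp only [Pi.smul_apply, smul_eq_mul]
    have : ∀ z, chi (univ : Finset ι) z * (c * x z) = c * (chi univ z * x z) := fun z => by ring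
    simp_rw [this]
    rw [← Finset.mul_sum, hx, mul_zero]

/-- Existence of a nonzero low degree polynomial vanishing on a small set. -/
lemma exists_vanishing (r : ℕ) (E : Finset (ι → Bool))
    (hE : E.card < (univ.filter (fun S : Finset ι => S.card ≤ r)).card) :
    ∃ a : Finset ι → ℝ, (∀ S, r < S.card → a S = 0) ∧
      (∀ x ∈ E, ∑ S, a S * chi S x = 0) ∧ ∃ x, ∑ S, a S * chi S x ≠ 0 := by
  classical
  set B := univ.filter (fun S : Finset ι => S.card ≤ r) with hB
  let L : (B → ℝ) →ₗ[ℝ] (E → ℝ) :=
    { toFun := fun a x => ∑ S : B, a S * chi S.1 x.1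
      map_add' := by
        intro a b
        funext x
        simp [add_mul, Finset.sum_add_distrib]
      map_smul' := by
        intro c a
        funext x
        simp [Finset.mul_sum, mul_assoc] }
  have hrank : Module.finrank ℝ (E → ℝ) < Module.finrank ℝ (B → ℝ) := by
    simpa using hE
  have hker := LinearMap.ker_ne_bot_of_finrank_lt (f := L) hrank
  obtain ⟨a0, ha0, hne⟩ := (Submodule.ne_bot_iff _).mp hker
  let a : Finset ι → ℝ := fun S => if h : S ∈ B then a0 ⟨S, h⟩ else 0
  have hexp : ∀ x, ∑ S, a S * chi S x = ∑ S : B, a0 S * chi S.1 x := by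
    intro x
    have h1 : ∑ S ∈ (univ : Finset (Finset ι)), a S * chi S x
        = ∑ S ∈ B, a S * chi S x := by
      symm
      apply Finset.sum_subset (Finset.subset_univ _)
      intro S _ hS
      simp [a, hS]
    rw [h1]
    rw [← Finset.sum_coe_sort B (fun S => a S * chi S x)]
    refine Finset.sum_congr rfl fun S _ => ?_
    simp [a]
  refine ⟨a, ?_, ?_, ?_⟩
  · intro S hS
    have : S ∉ B := by
      simp [hB]
      omega
    simp [a, this]
  · intro x hx
    rw [hexp]
    have := congrFun (LinearMap.mem_ker.mp ha0) ⟨x, hx⟩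
    simpa [L] using this
  · by_contra hcon
    push Not at hcon
    have hpar := parseval a
    have hz : ∑ x, (∑ S, a S * chi S x) ^ 2 = 0 := by
      refine Finset.sum_eq_zero fun x _ => ?_
      rw [hcon x]
      simp
    rw [hz] at hpar
    have h2 : (2:ℝ) ^ Fintype.card ι ≠ 0 := by positivity
    have h0 : ∑ S, a S ^ 2 = 0 := by
      rcases mul_eq_zero.mp hpar.symm with h | h
      · exact absurd h h2
      · exact h
    have h1 : ∀ S, a S = 0 := by
      intro S
      have := (Finset.sum_eq_zero_iff_of_nonneg (fun S _ => sq_nonneg (a S))).mp h0 S (mem_univ S)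
      exact pow_eq_zero_iff (two_ne_zero) |>.mp this
    apply hne
    funext S
    have := h1 S.1
    simpa [a, S.2] using this

end Cube

end

end Vale.Agent.helper6.PTF
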