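import Vale.Agent.helper6.PTF.Core

set_option autoImplicit false
set_option linter.unusedSectionVars false
set_option linter.unusedSimpArgs false

open Finset

namespace Vale.Agent.helper6.PTF

noncomputable section

variable {n : ℕ}

/-- Gluing an assignment on `B` with one on its complement. -/
def glue (B : Finset (Fin n)) (y : {i // i ∈ B} → Bool) (ρ : {i // i ∉ B} → Bool) : Fin n → Bool :=
  fun i => if h : i ∈ B then y ⟨i, h⟩ else ρ ⟨i, h⟩

/-- Splitting the cube along `B`. -/
def splitEquiv (B : Finset (Fin n)) :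
    (({i // i ∈ B} → Bool) × ({i // i ∉ B} → Bool)) ≃ (Fin n → Bool) where
  toFun z := glue B z.1 z.2
  invFun x := (fun i => x i.1, fun i => x i.1)
  left_inv := by
    rintro ⟨y, ρ⟩
    ext i
    · simp [glue, i.2]
    · simp [glue, i.2]
  right_inv := by
    intro x
    funext i
    by_cases h : i ∈ B <;> simp [glue, h]

lemma glue_flip (B : Finset (Fin n)) (y : {i // i ∈ B} → Bool) (ρ : {i // i ∉ B} → Bool)
    (j : {i // i ∈ B}) : glue B (flipAt j y) ρ = flipAt j.1 (glue B y ρ) := by
  funext i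
  by_cases hi : i = j.1
  · subst hi
    simp [glue, flipAt]
  · by_cases h : i ∈ B
    · have : (⟨i, h⟩ : {i // i ∈ B}) ≠ j := fun e => hi (by rw [← e])
      simp [glue, flipAt, h, Function.update_of_ne hi, Function.update_of_ne this]
    · simp [glue, flipAt, h, Function.update_of_ne hi]

lemma chi_glue (B : Finset (Fin n)) (S : Finset (Fin n)) (y : {i // i ∈ B} → Bool)
    (ρ : {i // i ∉ B} → Bool) :
    chi S (glue B y ρ) = chi (S.subtype (· ∈ B)) y * chi (S.subtype (· ∉ B)) ρ := by
  unfold chi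
  rw [← Finset.prod_filter_mul_prod_filter_not S (· ∈ B)]
  congr 1
  · rw [← Finset.prod_subtype_eq_prod_filter (s := S) (p := (· ∈ B))]
    refine Finset.prod_congr rfl fun i _ => ?_
    simp [glue, i.2]
  · rw [← Finset.prod_subtype_eq_prod_filter (s := S) (p := (· ∉ B))]
    refine Finset.prod_congr rfl fun i _ => ?_
    simp [glue, i.2]

lemma card_subtype_le (B S : Finset (Fin n)) : (S.subtype (· ∈ B)).card ≤ S.card := by
  rw [Finset.card_subtype]
  exact Finset.card_filter_le _ _

/-- Restricting a polynomial of degree `d` to a subcube gives a polynomial of degree `d`. -/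
lemma restrict_mem (B : Finset (Fin n)) (d : ℕ) {p : (Fin n → Bool) → ℝ} (hp : p ∈ Pol (Fin n) d)
    (ρ : {i // i ∉ B} → Bool) :
    (fun y => p (glue B y ρ)) ∈ Pol {i // i ∈ B} d := by
  induction hp using Submodule.span_induction with
  | mem h hh =>
    obtain ⟨S, hS, rfl⟩ := hh
    have : (fun y => chi S (glue B y ρ))
        = (chi (S.subtype (· ∉ B)) ρ) • chi (S.subtype (· ∈ B)) := by
      funext y
      rw [chi_glue]
      simp [mul_comm]
    rw [this]
    exact Submodule.smul_mem _ _ (chi_mem_Pol _ ((card_subtype_le B S).trans hS))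
  | zero => exact Submodule.zero_mem _
  | add x y _ _ hx hy => exact Submodule.add_mem _ hx hy
  | smul c x _ hx => exact Submodule.smul_mem _ c hx

/-- Block estimate. -/
theorem block (d : ℕ) (hd : 1 ≤ d) (B : Finset (Fin n)) (hB : B.card = 64 * d ^ 2)
    (p : (Fin n → Bool) → ℝ) (hp : p ∈ Pol (Fin n) d) (hp0 : ∀ x, p x ≠ 0) :
    (2 * (d : ℝ) + 1) / 4 * 2 ^ n ≤ ∑ i ∈ B, ∑ x, mono p i x := by
  have hcardB : Fintype.card {i // i ∈ B} = 64 * d ^ 2 := by simpa using hB
  have hcore : ∀ ρ : {i // i ∉ B} → Bool,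
      (2 * (d : ℝ) + 1) / 4 * 2 ^ (64 * d ^ 2) ≤
        ∑ j : {i // i ∈ B}, ∑ y, mono (fun y => p (glue B y ρ)) j y := by
    intro ρ
    have := core d hd hcardB (fun y => p (glue B y ρ)) (restrict_mem B d hp ρ)
      (fun y => hp0 _)
    rwa [hcardB] at this
  have hrewrite : ∑ i ∈ B, ∑ x, mono p i x
      = ∑ ρ : {i // i ∉ B} → Bool, ∑ j : {i // i ∈ B}, ∑ y,
          mono (fun y => p (glue B y ρ)) j y := by
    have h1 : ∀ j : {i // i ∈ B}, ∑ x, mono p j.1 x
        = ∑ ρ : {i // i ∉ B} → Bool, ∑ y, mono (fun y => p (glue B y ρ)) j y := by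
      intro j
      rw [← (splitEquiv B).sum_comp (mono p j.1), Fintype.sum_prod_type, Finset.sum_comm]
      refine Finset.sum_congr rfl fun ρ _ => Finset.sum_congr rfl fun y _ => ?_
      simp only [mono, splitEquiv, Equiv.coe_fn_mk, glue_flip]
      exact if_congr Iff.rfl rfl rfl
    calc ∑ i ∈ B, ∑ x, mono p i x
        = ∑ j : {i // i ∈ B}, ∑ x, mono p j.1 x :=
          (Finset.sum_coe_sort B (fun i => ∑ x, mono p i x)).symm
      _ = ∑ j : {i // i ∈ B}, ∑ ρ : {i // i ∉ B} → Bool, ∑ y,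
            mono (fun y => p (glue B y ρ)) j y :=
          Finset.sum_congr rfl fun j _ => h1 j
      _ = _ := Finset.sum_comm
  rw [hrewrite]
  have hcount : (Fintype.card ({i // i ∉ B} → Bool) : ℝ) * 2 ^ (64 * d ^ 2) = 2 ^ n := by
    have h1 : Fintype.card {i // i ∉ B} + 64 * d ^ 2 = n := by
      rw [Fintype.card_subtype_compl, Fintype.card_fin]
      have h2 : B.card ≤ n := by simpa using Finset.card_le_univ B
      simp only [hcardB]
      omega
    have h3 : (Fintype.card ({i // i ∉ B} → Bool) : ℝ) = 2 ^ Fintype.card {i // i ∉ B} := by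
      simp
    rw [h3, ← pow_add, h1]
  calc (2 * (d : ℝ) + 1) / 4 * 2 ^ n
      = ∑ _ρ : {i // i ∉ B} → Bool, (2 * (d : ℝ) + 1) / 4 * 2 ^ (64 * d ^ 2) := by
        rw [Finset.sum_const, Finset.card_univ, nsmul_eq_mul, ← hcount]
        ring
    _ ≤ _ := Finset.sum_le_sum fun ρ _ => hcore ρ

end

end Vale.Agent.helper6.PTF
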