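import Vale.Agent.helper6.PTF.Basic

set_option autoImplicit false
set_option linter.unusedSectionVars false
set_option linter.unusedSimpArgs false

open Finset

namespace Vale.Agent.helper6.PTF

noncomputable section

lemma centralBinom_sq (k : ℕ) : (2 * k + 1) * Nat.centralBinom k ^ 2 ≤ 16 ^ k := by
  induction k with
  | zero => simp
  | succ k ih =>
    have h1 := Nat.succ_mul_centralBinom_succ k
    set c := Nat.centralBinom k with hc
    set c' := Nat.centralBinom (k + 1) with hc'
    have hpos : 0 < (k + 1) ^ 2 := by positivity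
    apply Nat.le_of_mul_le_mul_left _ hpos
    calc (k + 1) ^ 2 * ((2 * (k + 1) + 1) * c' ^ 2)
        = (2 * k + 3) * ((k + 1) * c') ^ 2 := by ring
      _ = (2 * k + 3) * (2 * (2 * k + 1) * c) ^ 2 := by rw [h1]
      _ = (2 * k + 3) * (2 * k + 1) * 4 * ((2 * k + 1) * c ^ 2) := by ring
      _ ≤ (2 * k + 3) * (2 * k + 1) * 4 * 16 ^ k := Nat.mul_le_mul_left _ ih
      _ ≤ (k + 1) ^ 2 * 16 ^ (k + 1) := by
          have : (2 * k + 3) * (2 * k + 1) ≤ 4 * (k + 1) ^ 2 := by nlinarith
          calc (2 * k + 3) * (2 * k + 1) * 4 * 16 ^ k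
              ≤ 4 * (k + 1) ^ 2 * 4 * 16 ^ k := by
                apply Nat.mul_le_mul_right
                apply Nat.mul_le_mul_right
                exact this
            _ = (k + 1) ^ 2 * 16 ^ (k + 1) := by ring

lemma central_bound (d : ℕ) :
    8 * d * Nat.centralBinom (32 * d ^ 2) ≤ 2 ^ (64 * d ^ 2) := by
  have h := centralBinom_sq (32 * d ^ 2)
  have h2 : (8 * d * Nat.centralBinom (32 * d ^ 2)) ^ 2 ≤ (2 ^ (64 * d ^ 2)) ^ 2 := by
    calc (8 * d * Nat.centralBinom (32 * d ^ 2)) ^ 2
        = 64 * d ^ 2 * Nat.centralBinom (32 * d ^ 2) ^ 2 := by ring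
      _ ≤ (2 * (32 * d ^ 2) + 1) * Nat.centralBinom (32 * d ^ 2) ^ 2 := by
          apply Nat.mul_le_mul_right
          omega
      _ ≤ 16 ^ (32 * d ^ 2) := h
      _ = (2 ^ (64 * d ^ 2)) ^ 2 := by
          rw [show (16 : ℕ) = 2 ^ 4 by norm_num, ← pow_mul, ← pow_mul]
          congr 1
          ring
  exact (Nat.pow_le_pow_iff_left (by norm_num)).mp h2

section Cube

variable {ι : Type*} [Fintype ι] [DecidableEq ι]

lemma card_filter_card_le_of_biUnion (s : Finset ℕ)
    (C : Finset (Finset ι)) (hC : ∀ S ∈ C, S.card ∈ s) :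
    C.card ≤ ∑ j ∈ s, (Fintype.card ι).choose j := by
  have hsub : C ⊆ s.biUnion (fun j => powersetCard j (univ : Finset ι)) := by
    intro S hS
    rw [Finset.mem_biUnion]
    exact ⟨S.card, hC S hS, Finset.mem_powersetCard.mpr ⟨Finset.subset_univ _, rfl⟩⟩
  refine (Finset.card_le_card hsub).trans (Finset.card_biUnion_le.trans (le_of_eq ?_))
  refine Finset.sum_congr rfl fun j _ => ?_
  rw [Finset.card_powersetCard, Finset.card_univ]

/-- The Hamming ball of radius a bit below the middle has at least a quarter of all sets. -/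
lemma ball_card (d : ℕ) (hd : 1 ≤ d) (hm : Fintype.card ι = 64 * d ^ 2) :
    2 ^ (64 * d ^ 2) ≤
      4 * (univ.filter (fun S : Finset ι => S.card ≤ (64 * d ^ 2 - 3 * d - 1) / 2)).card := by
  set m := 64 * d ^ 2 with hmdef
  set r := (m - 3 * d - 1) / 2 with hr
  have hd2 : d ≤ d ^ 2 := by nlinarith
  have hmbig : 3 * d + 1 < m := by omega
  have h2r : 2 * r ≤ m - 3 * d - 1 := by omega
  have h2r' : m - 3 * d - 2 ≤ 2 * r := by omega
  set B := univ.filter (fun S : Finset ι => S.card ≤ r) with hB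
  set B' := univ.filter (fun S : Finset ι => m - r ≤ S.card) with hB'
  set C := univ.filter (fun S : Finset ι => r < S.card ∧ S.card < m - r) with hC
  have hcomp : B'.card = B.card := by
    refine Finset.card_nbij' (fun S => Sᶜ) (fun S => Sᶜ) ?_ ?_ ?_ ?_
    · intro S hS
      have hS1 : m - r ≤ S.card := (Finset.mem_filter.mp hS).2
      have hS2 : S.card ≤ m := by
        rw [← hm]; exact Finset.card_le_univ S
      refine Finset.mem_coe.mpr (Finset.mem_filter.mpr ⟨Finset.mem_univ _, ?_⟩)
      rw [Finset.card_compl, hm]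
      omega
    · intro S hS
      have hS1 : S.card ≤ r := (Finset.mem_filter.mp hS).2
      refine Finset.mem_coe.mpr (Finset.mem_filter.mpr ⟨Finset.mem_univ _, ?_⟩)
      rw [Finset.card_compl, hm]
      omega
    · intro S _
      simp
    · intro S _
      simp
  have htotal : B.card + B'.card + C.card = 2 ^ m := by
    have h1 : (univ : Finset (Finset ι)).card = 2 ^ m := by
      rw [Finset.card_univ, Fintype.card_finset, hm]
    rw [← h1]
    have hdisj1 : Disjoint B B' := by
      rw [Finset.disjoint_filter]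
      intro S _ h1 h2
      omega
    have hdisj2 : Disjoint (B ∪ B') C := by
      rw [Finset.disjoint_left]
      intro S hS hS2
      rw [Finset.mem_union, Finset.mem_filter, Finset.mem_filter] at hS
      have := (Finset.mem_filter.mp hS2).2
      omega
    rw [← Finset.card_union_of_disjoint hdisj1, ← Finset.card_union_of_disjoint hdisj2]
    congr 1
    ext S
    simp only [Finset.mem_union, Finset.mem_filter, Finset.mem_univ, true_and, hB, hB', hC, iff_true]
    omega
  have hCcard : C.card ≤ (m - r - r - 1) * Nat.centralBinom (32 * d ^ 2) := by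
    have h1 := card_filter_card_le_of_biUnion (ι := ι) (Finset.Ioo r (m - r)) C (by
      intro S hS
      have := (Finset.mem_filter.mp hS).2
      exact Finset.mem_Ioo.mpr this)
    refine h1.trans ?_
    have h2 : ∀ j ∈ Finset.Ioo r (m - r), (Fintype.card ι).choose j ≤ Nat.centralBinom (32 * d ^ 2) := by
      intro j _
      rw [hm, show m = 2 * (32 * d ^ 2) by omega]
      exact Nat.choose_le_centralBinom j _
    refine (Finset.sum_le_card_nsmul _ _ _ h2).trans (le_of_eq ?_)
    rw [Nat.card_Ioo, smul_eq_mul]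
  have hcount : m - r - r - 1 ≤ 4 * d := by omega
  have hcb := central_bound d
  have hC2 : 2 * C.card ≤ 2 ^ m := by
    calc 2 * C.card ≤ 2 * ((m - r - r - 1) * Nat.centralBinom (32 * d ^ 2)) :=
          Nat.mul_le_mul_left _ hCcard
      _ ≤ 2 * ((4 * d) * Nat.centralBinom (32 * d ^ 2)) :=
          Nat.mul_le_mul_left _ (Nat.mul_le_mul_right _ hcount)
      _ = 8 * d * Nat.centralBinom (32 * d ^ 2) := by ring
      _ ≤ 2 ^ m := hcb
  omega

/-- Indicator that a function changes value across the edge in direction `i` at `x`. -/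
def inc (g : (ι → Bool) → ℝ) (i : ι) (x : ι → Bool) : ℝ :=
  if g x ≠ g (flipAt i x) then 1 else 0

lemma inc_eq (g : (ι → Bool) → ℝ) (hg : ∀ x, g x = 1 ∨ g x = -1) (i : ι) (x : ι → Bool) :
    (g x - g (flipAt i x)) ^ 2 = 4 * inc g i x := by
  unfold inc
  rcases hg x with h1 | h1 <;> rcases hg (flipAt i x) with h2 | h2 <;> rw [h1, h2] <;> norm_num

lemma flip_expansion (a : Finset ι → ℝ) (i : ι) (x : ι → Bool) :
    (∑ S, a S * chi S x) - (∑ S, a S * chi S (flipAt i x))
      = ∑ S, (if i ∈ S then 2 * a S else 0) * chi S x := by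
  rw [← Finset.sum_sub_distrib]
  refine Finset.sum_congr rfl fun S _ => ?_
  by_cases h : i ∈ S
  · rw [chi_flip_mem S i h, if_pos h]; ring
  · rw [chi_flip_not_mem S i h, if_neg h]; ring

/-- Total influence formula. -/
lemma sum_inc (g : (ι → Bool) → ℝ) (hg : ∀ x, g x = 1 ∨ g x = -1) :
    ∑ i, ∑ x, inc g i x = 2 ^ Fintype.card ι * ∑ S, (S.card : ℝ) * coef g S ^ 2 := by
  have h1 : ∀ i, ∑ x, inc g i x
      = 2 ^ Fintype.card ι * ∑ S, (if i ∈ S then coef g S ^ 2 else 0) := by
    intro i
    have h2 : ∀ x, 4 * inc g i x = (∑ S, (if i ∈ S then 2 * coef g S else 0) * chi S x) ^ 2 := by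
      intro x
      rw [← flip_expansion, ← fourier_inversion, ← fourier_inversion, inc_eq g hg]
    have h3 : 4 * ∑ x, inc g i x = 2 ^ Fintype.card ι * ∑ S, (if i ∈ S then 2 * coef g S else 0) ^ 2 := by
      rw [Finset.mul_sum, ← parseval]
      exact Finset.sum_congr rfl fun x _ => h2 x
    have h4 : ∑ S, (if i ∈ S then 2 * coef g S else 0) ^ 2
        = 4 * ∑ S : Finset ι, (if i ∈ S then coef g S ^ 2 else 0) := by
      rw [Finset.mul_sum]
      refine Finset.sum_congr rfl fun S _ => ?_
      split_ifs <;> ring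
    rw [h4] at h3
    linarith
  simp_rw [h1]
  rw [← Finset.mul_sum, Finset.sum_comm]
  congr 1
  refine Finset.sum_congr rfl fun S _ => ?_
  rw [Finset.sum_ite_mem]
  simp [Finset.inter_eq_right.mpr (Finset.subset_univ S)]

/-- Low degree part of a function. -/
def lowPart (g : (ι → Bool) → ℝ) (D : ℕ) (x : ι → Bool) : ℝ :=
  ∑ S, (if S.card ≤ D then coef g S else 0) * chi S x

lemma lowPart_mem (g : (ι → Bool) → ℝ) (D : ℕ) : lowPart g D ∈ Pol ι D := by
  apply sum_mem_Pol
  intro S hS
  rw [if_neg (not_le.mpr hS)]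

lemma sub_lowPart (g : (ι → Bool) → ℝ) (D : ℕ) (x : ι → Bool) :
    g x - lowPart g D x = ∑ S, (if S.card ≤ D then 0 else coef g S) * chi S x := by
  conv_lhs => rw [fourier_inversion g x]
  unfold lowPart
  rw [← Finset.sum_sub_distrib]
  refine Finset.sum_congr rfl fun S _ => ?_
  split_ifs <;> ring

/-- The exceptional set where the low degree part has the wrong sign is small. -/
lemma exceptional_card (g : (ι → Bool) → ℝ) (hg : ∀ x, g x = 1 ∨ g x = -1) (D : ℕ) :
    ((univ.filter (fun x => lowPart g D x * g x ≤ 0)).card : ℝ) * ((D : ℝ) + 1)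
      ≤ ∑ i, ∑ x, inc g i x := by
  set E := univ.filter (fun x => lowPart g D x * g x ≤ 0) with hE
  have h1 : (E.card : ℝ) ≤ ∑ x, (g x - lowPart g D x) ^ 2 := by
    have h2 : ∀ x ∈ E, (1 : ℝ) ≤ (g x - lowPart g D x) ^ 2 := by
      intro x hx
      have h3 := (Finset.mem_filter.mp hx).2
      have h4 : g x * g x = 1 := by rcases hg x with h | h <;> rw [h] <;> norm_num
      nlinarith [sq_nonneg (lowPart g D x)]
    calc (E.card : ℝ) = ∑ x ∈ E, (1 : ℝ) := by simp
      _ ≤ ∑ x ∈ E, (g x - lowPart g D x) ^ 2 := Finset.sum_le_sum h2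
      _ ≤ ∑ x, (g x - lowPart g D x) ^ 2 :=
          Finset.sum_le_sum_of_subset_of_nonneg (Finset.subset_univ _)
            (fun _ _ _ => sq_nonneg _)
  have h5 : ∑ x, (g x - lowPart g D x) ^ 2
      = 2 ^ Fintype.card ι * ∑ S, (if S.card ≤ D then 0 else coef g S) ^ 2 := by
    rw [← parseval]
    exact Finset.sum_congr rfl fun x _ => by rw [sub_lowPart]
  rw [sum_inc g hg]
  rw [h5] at h1
  have h6 : (∑ S : Finset ι, (if S.card ≤ D then 0 else coef g S) ^ 2) * ((D : ℝ) + 1)
      ≤ ∑ S : Finset ι, (S.card : ℝ) * coef g S ^ 2 := by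
    rw [Finset.sum_mul]
    refine Finset.sum_le_sum fun S _ => ?_
    split_ifs with h
    · have : (0:ℝ) ≤ (S.card : ℝ) * coef g S ^ 2 := by positivity
      simpa using this
    · have h7 : (D : ℝ) + 1 ≤ S.card := by
        have : D + 1 ≤ S.card := by omega
        exact_mod_cast this
      nlinarith [sq_nonneg (coef g S)]
  have hD : (0:ℝ) ≤ (D : ℝ) + 1 := by positivity
  have hN : (0:ℝ) < 2 ^ Fintype.card ι := by positivity
  calc (E.card : ℝ) * ((D : ℝ) + 1)
      ≤ (2 ^ Fintype.card ι * ∑ S, (if S.card ≤ D then 0 else coef g S) ^ 2) * ((D : ℝ) + 1) :=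
        mul_le_mul_of_nonneg_right h1 hD
    _ = 2 ^ Fintype.card ι * ((∑ S, (if S.card ≤ D then 0 else coef g S) ^ 2) * ((D : ℝ) + 1)) := by
        ring
    _ ≤ _ := mul_le_mul_of_nonneg_left h6 hN.le

/-- Indicator that the sign of `q` does not change across the edge in direction `i` at `x`. -/
def mono (q : (ι → Bool) → ℝ) (i : ι) (x : ι → Bool) : ℝ :=
  if (0 < q x ↔ 0 < q (flipAt i x)) then 1 else 0

/-- Core estimate: a polynomial of degree `d` with no zero on a cube of dimension `64 d²`
keeps its sign across at least the fraction `(2d+1)/(4·64 d²)` of all edges. -/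
theorem core (d : ℕ) (hd : 1 ≤ d) (hm : Fintype.card ι = 64 * d ^ 2)
    (q : (ι → Bool) → ℝ) (hq : q ∈ Pol ι d) (hq0 : ∀ x, q x ≠ 0) :
    (2 * (d : ℝ) + 1) / 4 * 2 ^ Fintype.card ι ≤ ∑ i, ∑ x, mono q i x := by
  by_contra hcon
  push Not at hcon
  -- the function `g = F χ`
  let F : (ι → Bool) → ℝ := fun x => if 0 < q x then 1 else -1
  let χ : (ι → Bool) → ℝ := chi (univ : Finset ι)
  let g : (ι → Bool) → ℝ := fun x => F x * χ x
  have hF : ∀ x, F x = 1 ∨ F x = -1 := by
    intro x
    by_cases h : 0 < q x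
    · left; simp [F, h]
    · right; simp [F, h]
  have hχ2 : ∀ x, χ x * χ x = 1 := fun x => chi_sq _ x
  have hχ0 : ∀ x, χ x ≠ 0 := by
    intro x h
    have := hχ2 x
    rw [h] at this
    norm_num at this
  have hg : ∀ x, g x = 1 ∨ g x = -1 := by
    intro x
    have hx : χ x = 1 ∨ χ x = -1 := by
      have h1 := hχ2 x
      have h2 : (χ x - 1) * (χ x + 1) = 0 := by ring_nf; nlinarith
      rcases mul_eq_zero.mp h2 with h | h
      · left; linarith
      · right; linarith
    rcases hF x with h1 | h1 <;> rcases hx with h2 | h2 <;> simp [g, h1, h2]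
  have hincmono : ∀ i x, inc g i x = mono q i x := by
    intro i x
    have h1 : χ (flipAt i x) = - χ x := chi_flip_mem univ i (mem_univ i) x
    have hiff : g x ≠ g (flipAt i x) ↔ (0 < q x ↔ 0 < q (flipAt i x)) := by
      have h0 := hχ0 x
      have hgx : g x = F x * χ x := rfl
      have hgy : g (flipAt i x) = - (F (flipAt i x) * χ x) := by
        change F (flipAt i x) * χ (flipAt i x) = _
        rw [h1]; ring
      rw [hgx, hgy]
      by_cases h2 : 0 < q x <;> by_cases h3 : 0 < q (flipAt i x)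
      · have e2 : F x = 1 := by simp [F, h2]
        have e3 : F (flipAt i x) = 1 := by simp [F, h3]
        rw [e2, e3]
        refine ⟨fun _ => by simp [h2, h3], fun _ h4 => h0 (by linarith)⟩
      · have e2 : F x = 1 := by simp [F, h2]
        have e3 : F (flipAt i x) = -1 := by simp [F, h3]
        rw [e2, e3]
        refine ⟨fun h4 => absurd (by ring) h4, fun h5 => absurd (h5.mp h2) h3⟩
      · have e2 : F x = -1 := by simp [F, h2]
        have e3 : F (flipAt i x) = 1 := by simp [F, h3]
        rw [e2, e3]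
        refine ⟨fun h4 => absurd (by ring) h4, fun h5 => absurd (h5.mpr h3) h2⟩
      · have e2 : F x = -1 := by simp [F, h2]
        have e3 : F (flipAt i x) = -1 := by simp [F, h3]
        rw [e2, e3]
        refine ⟨fun _ => by simp [h2, h3], fun _ h4 => h0 (by linarith)⟩
    unfold inc mono
    by_cases h : (0 < q x ↔ 0 < q (flipAt i x))
    · rw [if_pos h, if_pos (hiff.mpr h)]
    · rw [if_neg h, if_neg (fun h5 => h (hiff.mp h5))]
  have hsum : ∑ i, ∑ x, inc g i x = ∑ i, ∑ x, mono q i x :=
    Finset.sum_congr rfl fun i _ => Finset.sum_congr rfl fun x _ => hincmono i x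
  -- the exceptional set
  set E := univ.filter (fun x => lowPart g (2 * d) x * g x ≤ 0) with hE
  have hE1 := exceptional_card g hg (2 * d)
  rw [hsum] at hE1
  have hNpos : (0 : ℝ) < 2 ^ Fintype.card ι := by positivity
  have hdpos : (0 : ℝ) < 2 * (d : ℝ) + 1 := by positivity
  have hE2 : (E.card : ℝ) < 2 ^ Fintype.card ι / 4 := by
    have h3 : (E.card : ℝ) * (2 * (d : ℝ) + 1) < (2 * (d : ℝ) + 1) / 4 * 2 ^ Fintype.card ι := by
      have : (((2 * d : ℕ) : ℝ) + 1) = 2 * (d : ℝ) + 1 := by push_cast; ring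
      rw [this] at hE1
      linarith
    have h4 : (E.card : ℝ) * (2 * (d : ℝ) + 1) < 2 ^ Fintype.card ι / 4 * (2 * (d : ℝ) + 1) := by
      calc _ < _ := h3
        _ = _ := by ring
    exact lt_of_mul_lt_mul_right h4 hdpos.le
  set m := 64 * d ^ 2 with hmdef
  set r := (m - 3 * d - 1) / 2 with hr
  have hball := ball_card (ι := ι) d hd hm
  have hE3 : E.card < (univ.filter (fun S : Finset ι => S.card ≤ r)).card := by
    have h5 : (2:ℝ) ^ Fintype.card ι ≤ 4 * ((univ.filter (fun S : Finset ι => S.card ≤ r)).card : ℝ) := by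
      rw [hm]
      exact_mod_cast hball
    have h6 : (E.card : ℝ) < ((univ.filter (fun S : Finset ι => S.card ≤ r)).card : ℝ) := by
      linarith
    exact_mod_cast h6
  obtain ⟨b, hb1, hb2, x0, hx0⟩ := exists_vanishing r E hE3
  let v : (ι → Bool) → ℝ := fun x => ∑ S, b S * chi S x
  have hv : v ∈ Pol ι r := sum_mem_Pol r b hb1
  let G := lowPart g (2 * d)
  have hG : G ∈ Pol ι (2 * d) := lowPart_mem g _
  have hprod : G * (v * (v * q)) ∈ Pol ι (2 * d + (r + (r + d))) :=
    mul_mem_Pol hG (mul_mem_Pol hv (mul_mem_Pol hv hq))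
  have hdeg : 2 * d + (r + (r + d)) < Fintype.card ι := by
    rw [hm]
    have hd2 : d ≤ d ^ 2 := by nlinarith
    omega
  have hzero := top_orth hdeg hprod
  -- pointwise identity and positivity
  have hpoint : ∀ x, chi (univ : Finset ι) x * (G * (v * (v * q))) x
      = (G x * g x) * (v x) ^ 2 * |q x| := by
    intro x
    have h1 : q x = F x * |q x| := by
      by_cases h : 0 < q x
      · simp [F, h, abs_of_pos h]
      · have h' : q x < 0 := lt_of_le_of_ne (not_lt.mp h) (hq0 x)
        simp [F, h, abs_of_neg h']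
    simp only [Pi.mul_apply]
    change χ x * (G x * (v x * (v x * q x))) = (G x * (F x * χ x)) * (v x) ^ 2 * |q x|
    conv_lhs => rw [h1]
    ring
  have hnn : ∀ x, 0 ≤ chi (univ : Finset ι) x * (G * (v * (v * q))) x := by
    intro x
    rw [hpoint]
    by_cases hx : x ∈ E
    · have : v x = 0 := hb2 x hx
      simp [this]
    · have h1 : 0 < G x * g x := by
        have := fun h => hx (Finset.mem_filter.mpr ⟨Finset.mem_univ x, h⟩)
        exact not_le.mp this
      positivity
  have hall := (Finset.sum_eq_zero_iff_of_nonneg (fun x _ => hnn x)).mp hzero x0 (mem_univ _)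
  rw [hpoint] at hall
  have hx0E : x0 ∉ E := fun h => hx0 (hb2 x0 h)
  have h1 : 0 < G x0 * g x0 := by
    have := fun h => hx0E (Finset.mem_filter.mpr ⟨Finset.mem_univ x0, h⟩)
    exact not_le.mp this
  have h2 : 0 < (v x0) ^ 2 := by
    have : v x0 ≠ 0 := hx0
    positivity
  have h3 : 0 < |q x0| := abs_pos.mpr (hq0 x0)
  have : 0 < (G x0 * g x0) * (v x0) ^ 2 * |q x0| := by positivity
  linarith

end Cube

end

end Vale.Agent.helper6.PTF
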